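import Vale.Agent.P014X.Kq.Bc

/-! The Kolyvagin bound of an induced representation: the row `KQ`. -/

set_option autoImplicit false
set_option linter.all false

namespace Vale.Agent.P014X.Kq
open Matrix Submodule Set Function Module IsLocalRing P004F.Alg P004F.Ch
open Vale.Agent.P014U.Kq (M2 F4 Gl Pk Sg)
open Vale.Agent.P014T.Kq (lv lv_eq Hf St R1 ex_sat loc_zero)

variable {O G σ ι : Type} [CommRing O] [Group G] [IsDomain O] {γ γ' : Gl O G σ} (s : Sat γ)
  (s' : Sat γ') {A A' : M2 O}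

omit [IsDomain O] in
theorem rl0 {p : Pk O G σ ι} {κ : Fin p.g → O} (h : p.Rm γ 1 *ᵥ κ = 0) {v} (hv : v ∈ p.Rl γ 1) :
    v ⬝ᵥ κ = 0 :=
  (span_le (p := LinearMap.ker ((dotProductBilin O O).flip κ))).2
    (by rintro _ ⟨i, rfl⟩; exact congrFun h i) hv

/-- a point after saturation -/
noncomputable def pt {p : Pk O G σ ι} {κ : Fin p.g → O} (h : p.Rm γ 1 *ᵥ κ = 0)
    (k : ∀ x, (A - 1) *ᵥ (p.S x *ᵥ κ) = 0) : Xp s A p →ₗ[O] O :=
  lift ((dotProductBilin O O).flip κ) (fun v hv => rl0 h hv) (fun y i =>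
    congrFun (eq_zero_of_mulVec_eq_zero (s.ne y) (v := (s.N y * p.l y) *ᵥ κ) (by
      rw [mulVec_mulVec, ← Matrix.mul_assoc, ← s.eq]
      exact funext fun j => congrFun h (.inr (.inl y, j)))) i) fun x i =>
    congrFun ((mulVec_mulVec ..).symm.trans (k x)) i

theorem pt_mk {p : Pk O G σ ι} {κ : Fin p.g → O} (h : p.Rm γ 1 *ᵥ κ = 0)
    (k : ∀ x, (A - 1) *ᵥ (p.S x *ᵥ κ) = 0) (v) : pt s h k (mk s A p v) = v ⬝ᵥ κ := rfl

variable [Fintype σ] {H : Subgroup G} {c : G} {J : M2 O} {B : σ → Matrix F4 F4 O} {p q : Sg O G σ}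
  (ρH : ∀ h ∈ H, γ.ρ h = 1) (o : So γ γ' p H c J A B) (lam lam' : Fin 2 → O)

omit [IsDomain O] in
include ρH o in
theorem So.ds (x) : (A - 1) *ᵥ (p.X.S x *ᵥ p.dg) = 0 := by
  rw [show p.X.S x *ᵥ p.dg = 0 from funext fun i => (sup_le (span_le.2 (by
    rintro _ ⟨g, hg, i, rfl⟩
    have := congrFun (o.du g) i
    rw [ρH g hg, sub_self, zero_mulVec] at this
    exact this)) fun v hv => rl0 o.dr hv : _ ≤ LinearMap.ker ((dotProductBilin O O).flip p.dg))
      (o.X.sH x i), mulVec_zero]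

variable (A') in
/-- the stage after saturation -/
noncomputable abbrev st : St O G where
  ι := p.ι
  X := hf s A p.X lam
  Y := hf s' A' p.Y lam'
  κ := pt s o.kr o.ks
  dg := pt s o.dr (o.ds ρH)

variable {lam lam'} {e e' : Fin 2 → O} (r : R1 (A - 1) e lam) (r' : R1 (A' - 1) e' lam')
include r r'

theorem st_ex (o' : So γ γ' q H c J A B) {g : G} (E : Se γ γ' A p q g) :
    (st s s' A' ρH o lam lam').Ex lam lam' (st s s' A' ρH o' lam lam') g := by
  obtain ⟨π, h⟩ := hf_ex (s := s) r o.X E.X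
  obtain ⟨π', h'⟩ := hf_ex (s := s') r' o.Y E.Y
  obtain ⟨y, hy, k⟩ := E.fs
  obtain ⟨t, ht, a⟩ := r.adj
  refine ⟨E.e, π, π', h, h', (Associated.of_eq ?_).trans (associated_unit_mul_left _ _ (hy.mul ht))⟩
  have k' : ∀ i, q.X.S (E.e none) i ⬝ᵥ q.κ = y * ∑ j, t * (e i * lam j) * (p.X.u g j ⬝ᵥ p.κ) :=
    fun i => by rw [a] at k; exact congrFun k i
  have b := r.le
  rw [dotProduct, Fin.sum_univ_two] at b
  simp only [lv_eq, map_add, map_smul, pt_mk, k', smul_eq_mul, Fin.sum_univ_two]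
  linear_combination (y * t * (lam 0 * (p.X.u g 0 ⬝ᵥ p.κ) + lam 1 * (p.X.u g 1 ⬝ᵥ p.κ))) * b

variable [IsDiscreteValuationRing O]

theorem st_ok (uJ : IsUnit J.det) (AJ : Aᵀ * J * A' = J)
    (hB : ∀ y, (1 - s.D y * s.N y)ᵀ * B y * (1 - s'.D y * s'.N y) = 0) :
    (st s s' A' ρH o lam lam').Ok (fun g => γ.ρ g) (fun g => γ'.ρ g) H c γ.gp where
  X := hf_ok r o.X
  Y := hf_ok r' o.Y
  du g i := congrFun (o.du g) i
  rc := by
    obtain ⟨w, w', η, Z, Z', hw, k⟩ := o.rc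
    obtain ⟨⟨a, ha, a1⟩, a', ha', a2⟩ := r.dual r' uJ AJ
    let ψ := residue O
    refine ⟨fun l => residue O (w l * a), fun l => residue O (w' l * a'),
      fun l => (((hw l).1.mul ha).map _).ne_zero,
      fun l => (((hw l).2.mul ha').map _).ne_zero, fun x y => ?_⟩
    let xv := fun i => x (mk s A p.X (Pi.single i 1))
    let yv := fun i => y (mk s' A' p.Y (Pi.single i 1))
    have sm : ∀ (a : O) (z : ResidueField O), a • z = residue O a * z := fun a z => Algebra.smul_def a z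
    have hx : ∀ {n : Type} (P : Matrix n _ O), P.map ψ *ᵥ xv = fun a => x (mk s A p.X (P a)) := fun P => by
      ext a; conv_rhs => rw [pi_eq_sum_univ' (P a), map_sum, map_sum]
      simp only [map_smul, sm]; rfl
    have hy : ∀ {n : Type} (P : Matrix n _ O), P.map ψ *ᵥ yv = fun a => y (mk s' A' p.Y (P a)) := fun P => by
      ext a; conv_rhs => rw [pi_eq_sum_univ' (P a), map_sum, map_sum]
      simp only [map_smul, sm]; rfl
    let Ψ : Matrix _ _ O →+ ResidueField O := AddMonoidHom.mk' (fun C => xv ⬝ᵥ C.map ψ *ᵥ yv)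
      fun _ _ => by simp [Matrix.map_add, add_mulVec]
    have k1 : ∀ {n m : Type} [Fintype n] [Fintype m] (P : Matrix n _ O) (T : Matrix n m O) (P' : Matrix m _ O),
        Ψ (Pᵀ * T * P') = (fun a => x (mk s A p.X (P a))) ⬝ᵥ T.map ψ *ᵥ fun a => y (mk s' A' p.Y (P' a)) :=
      fun P T P' => by
        simp only [Ψ, AddMonoidHom.mk'_apply, Matrix.map_mul, ← mulVec_mulVec, transpose_map, ← hx, ← hy]
        rw [dotProduct_mulVec, vecMul_transpose]
    have k2 : ∀ (a : O) C, Ψ (a • C) = ψ a * Ψ C := fun a C => by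
      simp only [Ψ, AddMonoidHom.mk'_apply]
      rw [show (a • C).map ψ = ψ a • C.map ψ by ext; simp, smul_mulVec, dotProduct_smul, smul_eq_mul]
    have z1 : Ψ ((p.X.Rm γ 1)ᵀ * Z) = 0 := by
      simp only [Ψ, AddMonoidHom.mk'_apply, Matrix.map_mul, ← mulVec_mulVec, transpose_map]
      rw [dotProduct_mulVec, vecMul_transpose, show (p.X.Rm γ 1).map ψ *ᵥ xv = 0 from
        (hx _).trans (funext fun a => by rw [mk0 (subset_span ⟨a, rfl⟩), map_zero]; rfl), zero_dotProduct]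
    have z2 : Ψ (Z' * p.Y.Rm γ' 1) = 0 := by
      simp only [Ψ, AddMonoidHom.mk'_apply, Matrix.map_mul, ← mulVec_mulVec]
      rw [show (p.Y.Rm γ' 1).map ψ *ᵥ yv = 0 from (hy _).trans (funext fun a => by
        rw [mk0 (subset_span ⟨a, rfl⟩), map_zero]; rfl), mulVec_zero, dotProduct_zero]
    have z3 : ∀ z, Ψ ((p.X.l z)ᵀ * B z * p.Y.l z) = 0 := fun z => by
      have n1 : (1 - s.D z * s.N z).map (residue O) *ᵥ (fun a => x (mk s A p.X (p.X.l z a))) =
          fun a => x (mk s A p.X (p.X.l z a)) := by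
        rw [Matrix.map_sub _ (map_sub _), Matrix.map_one _ (map_zero _) (map_one _), Matrix.map_mul,
          sub_mulVec, one_mulVec, ← mulVec_mulVec, show (s.N z).map _ *ᵥ _ = 0 from funext fun i => by
            have := congrArg x ((map_row ..).symm.trans (mkN z i))
            simp only [map_sum, map_smul, sm, map_zero] at this
            exact this, mulVec_zero, sub_zero]
      have n2 : (1 - s'.D z * s'.N z).map (residue O) *ᵥ (fun a => y (mk s' A' p.Y (p.Y.l z a))) =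
          fun a => y (mk s' A' p.Y (p.Y.l z a)) := by
        rw [Matrix.map_sub _ (map_sub _), Matrix.map_one _ (map_zero _) (map_one _), Matrix.map_mul,
          sub_mulVec, one_mulVec, ← mulVec_mulVec, show (s'.N z).map _ *ᵥ _ = 0 from funext fun i => by
            have := congrArg y ((map_row ..).symm.trans (mkN z i))
            simp only [map_sum, map_smul, sm, map_zero] at this
            exact this, mulVec_zero, sub_zero]
      rw [k1, ← n1, ← n2, ← vecMul_transpose, ← dotProduct_mulVec, mulVec_mulVec, mulVec_mulVec,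
        ← transpose_map, ← Matrix.map_mul, ← Matrix.map_mul, hB]
      simp
    have := congrArg Ψ k
    rw [map_add, map_add, z1, z2, k2, map_sum, map_sum, Finset.sum_eq_zero fun z _ => z3 z, mul_zero,
      add_zero, add_zero] at this
    rw [← this, dotProduct, dotProduct, ← Finset.sum_add_distrib]
    refine Finset.sum_congr rfl fun l _ => ?_
    have b1 := fun i => congrArg (residue O) (congrFun a1 i)
    have b2 := fun i => congrArg (residue O) (congrFun a2 i)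
    obtain ⟨u, u1, u2⟩ : ∃ u, x ((hf s A p.X lam).s l) = u ∧
        ∀ i, x (mk s A p.X (p.X.S l i)) = residue O (e i) * u :=
      ⟨_, rfl, fun i => (congrArg x (mkS r l i)).trans ((map_smul ..).trans (sm ..))⟩
    obtain ⟨v, v1, v2⟩ : ∃ u, y ((hf s' A' p.Y lam').s l) = u ∧
        ∀ i, y (mk s' A' p.Y (p.Y.S l i)) = residue O (e' i) * u :=
      ⟨_, rfl, fun i => (congrArg y (mkS r' l i)).trans ((map_smul ..).trans (sm ..))⟩
    show residue O ((w l) * a) * x (lv lam _) * y ((hf s' A' p.Y lam').s l) +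
      residue O ((w' l) * a') * x ((hf s A p.X lam).s l) * y (lv lam' _) = _
    rw [u1, v1]
    simp only [map_add, k1, k2, u2, v2, lv_eq, mulVec, vecMul, dotProduct, Fin.sum_univ_two, map_mul,
      map_smul, sm, map_apply, Pi.smul_apply, smul_eq_mul, ψ] at b1 b2 ⊢
    linear_combination (-residue O (w l) * v) * (x (mk s A p.X (p.X.F l 0)) * b1 0 +
      x (mk s A p.X (p.X.F l 1)) * b1 1) - (residue O (w' l) * u) *
      (y (mk s' A' p.Y (p.Y.F l 0)) * b2 0 + y (mk s' A' p.Y (p.Y.F l 1)) * b2 1)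

omit o r r' ρH in
/-- **the Kolyvagin bound** -/
theorem kq : KQ := by
  intro O _ _ _ h2 S x M _ _ m d ms m0 hd
  classical
  obtain ⟨e, lam, r⟩ := go_r1 S.g1 h2
  obtain ⟨e', lam', r'⟩ := go_r1 S.g2 h2
  have sat : ∀ γ : Gl O S.G S.σ, (∀ y, ∃ D : Matrix F4 (Fin 2) O, (γ.N y * D).det ≠ 0) →
      Nonempty (Sat γ) := fun γ h => by
    choose D hD using h
    choose C N D h1 h3 h4 using fun y => ex_sat (γ.N y) (hD y)
    exact ⟨⟨C, N, D, h1, h3, h4⟩⟩
  have pn : ∀ y (t : O), (∀ D : Matrix F4 (Fin 2) O, t ∣ (S.γ.N y * D).det) → t ∣ S.P y := fun y t h =>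
    Ideal.mem_span_singleton.1 ((Ideal.span_le (I := Ideal.span {t})).2
      (by rintro _ ⟨D, rfl⟩; exact Ideal.mem_span_singleton.2 (h D)) (S.PN y))
  obtain ⟨s⟩ := sat S.γ fun y => by
    by_contra! h
    exact S.P0 y (zero_dvd_iff.1 (pn y 0 fun D => zero_dvd_iff.2 (h D)))
  obtain ⟨s'⟩ := sat S.γ' S.N0
  have ok := fun p hp => st_ok s s' S.g1.ρH (S.ok p hp) r r' S.uJ S.AJ fun y => by
    obtain ⟨Cb, D, Z, k1, k2, k3⟩ := S.cb y
    exact loc_zero (s.inv y) (s'.inv y) (s.ne y) k1 (s.eq y ▸ k2) (s'.eq y ▸ k3)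
  have := S.emp
  obtain ⟨δ, d1, d2⟩ := core (go_si S.g1 S.nK S.nH h2 r) (go_si S.g2 S.nK S.nH h2 r')
    (𝒮 := {q | ∃ p, ∃ h : p ∈ S.𝒮, q = st s s' S.A' S.g1.ρH (S.ok p h) lam lam'})
    (by rintro _ ⟨p, h, rfl⟩; exact ok p h) (by
      rintro _ ⟨p, h, rfl⟩ a ha
      obtain ⟨q, h', ⟨E⟩⟩ := S.ext p h a ha
      exact ⟨_, ⟨q, h', rfl⟩, st_ex s s' _ _ r r' _ E⟩) ⟨_, S.mem, rfl⟩ (Fin 2)
    (fun i => mk s S.A S.o.X (x i)) ![pt s (S.ok _ S.mem).dr ((S.ok _ S.mem).ds S.g1.ρH),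
      pt s (S.ok _ S.mem).kr (S.ok _ S.mem).ks] 0 1
    (by simp) (by simp) rfl rfl
  have d3 : δ ∣ S.o.W x := by
    rw [det_fin_two] at d2
    rw [Sg.W, mul_comm (x 1 ⬝ᵥ S.o.dg)]
    exact d2
  let n := fun z : Fin 2 × S.σ => m ((s.N z.2 * S.o.X.l z.2) z.1)
  let N := span O (range n)
  have d4 : Dt N (∏ y, (s.C y).det) := by
    refine ⟨Fin 2 × S.σ, inferInstance, inferInstance, fun z => ⟨n z, subset_span ⟨z, rfl⟩⟩,
      blockDiagonal s.C, (span_range_subtype_eq_top_iff N _).2 rfl, fun z => Subtype.ext ?_,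
      det_blockDiagonal _⟩
    have k := m0 _ (mem_sup_left (subset_span ⟨.inr (.inl z.2, z.1), rfl⟩))
    rw [show S.o.X.Rm S.γ 1 _ = (S.γ.N z.2 * S.o.X.l z.2) z.1 from rfl, s.eq, Matrix.mul_assoc,
      map_row] at k
    simpa [Fintype.sum_prod_type, blockDiagonal_apply, n, -Fin.sum_univ_two, -Fintype.sum_sum_type] using k
  let L : Xp s S.A S.o.X →ₗ[O] M ⧸ N := lift (N.mkQ ∘ₗ m)
    (fun v hv => (congrArg N.mkQ (m0 _ (mem_sup_left hv))).trans (map_zero _))
    (fun y i => (Quotient.mk_eq_zero N).2 (subset_span ⟨(i, y), rfl⟩)) fun x => isEmptyElim x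
  have d5 := d1.lift L (fun z => by
      obtain ⟨z, rfl⟩ := mkQ_surjective _ z
      obtain ⟨v, rfl⟩ := ms z
      exact ⟨mk s S.A S.o.X v, rfl⟩) (span_le.2 (by
      rintro _ ⟨i, rfl⟩
      exact (congrArg N.mkQ (m0 _ (mem_sup_right (subset_span ⟨i, rfl⟩)))).trans (map_zero _)))
  refine (hd.dvd (d4.mul N d5)).trans ?_
  exact mul_dvd_mul (Finset.prod_dvd_prod_of_dvd _ _ fun y _ => pn y _ fun D => by
    rw [s.eq, Matrix.mul_assoc, det_mul]; exact dvd_mul_right ..) d3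

end Vale.Agent.P014X.Kq
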