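import Vale.Agent.P014X.Kq.St
import Vale.Agent.P014T.Kq.Mat

/-! The Kolyvagin chain of an induced representation over a discrete valuation ring. -/

set_option autoImplicit false
set_option linter.all false

namespace Vale.Agent.P014X.Kq
open Matrix Submodule Set Function Module IsLocalRing P004F.Alg P004F.Ch
open Vale.Agent.P014U.Kq (M2 F4 Gl)
open Vale.Agent.P014T.Kq (lv lv_eq Hf St R1 ex_r1 pick orth dt0 ex_div fin_k rk_le ex_bas ev)

/-- what the chain uses of the group theory -/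
structure Si {O G : Type} [CommRing O] [Group G] (A : G → M2 O) (H : Subgroup G) (c : G)
    (gp lam : Fin 2 → O) : Prop where
  om : ∀ {M : Type} [AddCommGroup M] [Module O M] {u : G → Fin 2 → M}, Co A u → u c = 0 →
    ∃ ω, ∀ g i, u g i - ((A g - 1) *ᵥ gp) i • ω ∈ Y O H u
  le : ∀ {M : Type} [AddCommGroup M] [Module O M] {u : G → Fin 2 → M}, Co A u →
    ∀ {N : Submodule O M}, (∀ g ∈ H, lv lam (u g) ∈ N) → Y O H u ≤ N
  ker : ∀ h ∈ H, A h = 1
  two : IsUnit (2 : O)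

section grp
open scoped Matrix.Module

variable {O G σ M : Type} [CommRing O] [Group G] [AddCommGroup M] [Module O M] {γ : Gl O G σ}
  {K H : Subgroup G} {c : G} {A : M2 O} {e lam : Fin 2 → O}

theorem co_eq {ρ : G → M2 O} {u : G → Fin 2 → M} (co : Co ρ u) (g h : G) :
    u (g * h) = u g + ρ g • u h := co g h

/-- a cocycle which vanishes on `H` is a coboundary -/
theorem Go.cob (o : Go γ K H c A) (nK : K.Normal) {v : G → Fin 2 → M} (co : Co (fun g => γ.ρ g) v)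
    (h0 : ∀ h ∈ H, v h = 0) : ∃ m : Fin 2 → M, ∀ g, v g = (γ.ρ g - 1) • m := by
  obtain ⟨z, zK, zu, hz⟩ := o.sah
  have inj : ∀ x : Fin 2 → M, (γ.ρ z - 1) • x = 0 → x = 0 := fun x h => by
    rw [← one_smul (M2 O) x, ← nonsing_inv_mul _ zu, mul_smul, h, smul_zero]
  obtain ⟨m, hm⟩ : ∃ m : Fin 2 → M, (γ.ρ z - 1) • m = v z :=
    ⟨(γ.ρ z - 1)⁻¹ • v z, by rw [← mul_smul, mul_nonsing_inv _ zu, one_smul]⟩
  have k : ∀ g ∈ K, v g = (γ.ρ g - 1) • m := fun g gK => by
    have e : z * g = z * g * z⁻¹ * g⁻¹ * (g * z) := by group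
    have c1 : γ.ρ z * γ.ρ g = γ.ρ g * γ.ρ z := by
      rw [← map_mul, e, map_mul, o.ρH _ (hz g gK), one_mul, map_mul]
    have c2 : v z + γ.ρ z • v g = v g + γ.ρ g • v z := by
      rw [← co_eq co, ← co_eq co, e, co.left (o.ρH _ (hz g gK)), h0 _ (hz g gK), zero_add]
    refine sub_eq_zero.1 (inj _ ?_)
    have c3 : (γ.ρ z - 1) * (γ.ρ g - 1) = (γ.ρ g - 1) * (γ.ρ z - 1) := by
      simp only [mul_sub, sub_mul, mul_one, one_mul, c1]; abel
    rw [smul_sub, ← mul_smul, c3, mul_smul, hm, sub_smul, sub_smul, one_smul, one_smul,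
      eq_sub_of_add_eq' c2]
    abel
  refine ⟨m, fun x => sub_eq_zero.1 (inj _ ?_)⟩
  have e : z * x = x * (x⁻¹ * z * x⁻¹⁻¹) := by group
  have c1 : v z + γ.ρ z • v x = v x + γ.ρ x • v (x⁻¹ * z * x⁻¹⁻¹) := by
    rw [← co_eq co, ← co_eq co, ← e]
  rw [k _ (nK.conj_mem z zK x⁻¹), ← mul_smul, mul_sub, ← map_mul, ← e, map_mul, mul_one, ← hm] at c1
  rw [smul_sub, sub_smul, one_smul, eq_sub_of_add_eq' c1]
  simp only [smul_sub, mul_smul, sub_smul, one_smul]
  abel

theorem Go.sq (o : Go γ K H c A) : A * A = 1 := by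
  have a := o.tr
  have b := o.det
  rw [trace_fin_two] at a
  rw [det_fin_two] at b
  ext i j
  fin_cases i <;> fin_cases j <;> simp [mul_apply, Fin.sum_univ_two]
  · linear_combination A 0 0 * a - b
  · linear_combination A 0 1 * a
  · linear_combination A 1 0 * a
  · linear_combination A 1 1 * a - b

theorem go_r1 [IsLocalRing O] (o : Go γ K H c A) (h2 : IsUnit (2 : O)) :
    ∃ e lam, R1 (A - 1) e lam := by
  have a := o.tr
  have b := o.det
  rw [trace_fin_two] at a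
  rw [det_fin_two] at b
  refine ex_r1 ?_ ?_
  · rw [det_fin_two]; simp; linear_combination b - a
  · rw [trace_fin_two, show (A - 1) 0 0 + (A - 1) 1 1 = -2 by simp; linear_combination a]
    exact h2.neg

theorem go_si (o : Go γ K H c A) (nK : K.Normal) (nH : H.Normal) (h2 : IsUnit (2 : O))
    (r : R1 (A - 1) e lam) : Si (fun g => γ.ρ g) H c γ.gp lam := by
  obtain ⟨t, ht⟩ := h2.exists_left_inv
  refine ⟨fun {M} _ _ u co fr => ?_, fun {M} _ _ u co N h => Y_le.2 fun g hg j => ?_, o.ρH, h2⟩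
  · obtain ⟨m, hm⟩ := o.cob nK (co.map (Y O H u).mkQ) fun h a => funext fun i =>
      (Quotient.mk_eq_zero _).2 (mem_Y u a i)
    obtain ⟨w, hw⟩ := o.cj
    obtain ⟨ω, hω⟩ := mkQ_surjective (Y O H u) (t • lv w m)
    have e1 : γ.ρ c • m = m := by
      have := hm c
      rw [sub_smul, one_smul, fr, eq_comm, sub_eq_iff_eq_add] at this
      exact this.trans (funext fun i => by simp)
    have e2 : ∀ i, m i = γ.gp i • t • lv w m := fun i => by
      have e3 : m + m = vecMulVec γ.gp w • m := by rw [← hw, add_smul, one_smul, e1]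
      have := congrFun e3 i
      simp only [Pi.add_apply, Matrix.Module.smul_apply, vecMulVec_apply, Fin.sum_univ_two] at this
      rw [lv_eq]
      linear_combination (norm := module) t • this - ht • m i
    refine ⟨ω, fun g i => (Quotient.mk_eq_zero _).1 ?_⟩
    rw [← mkQ_apply, map_sub, map_smul, hω, congrFun (hm g) i, Matrix.Module.smul_apply, sub_eq_zero,
      mulVec, dotProduct, Finset.sum_smul]
    exact Finset.sum_congr rfl fun j _ => by rw [mul_smul, ← e2]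
  · have one : u 1 = 0 := co.one (map_one _)
    have cj : u (c⁻¹ * g * c⁻¹⁻¹) = γ.ρ c⁻¹ • u g := by
      have a := co_eq co c⁻¹ c⁻¹⁻¹
      rw [mul_inv_cancel, one] at a
      rw [mul_assoc, co_eq co, co.left (o.ρH g hg), smul_add, add_left_comm, ← a, add_zero]
    have lvv : ∀ (B : M2 O) (a : Fin 2 → O), lv a (B • u g) = lv (a ᵥ* B) (u g) := fun B a => by
      simp only [lv_eq, Matrix.Module.smul_apply, vecMul, dotProduct, Fin.sum_univ_two]; module
    have k1 := h g hg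
    have k2 := h _ (nH.conj_mem g hg c⁻¹)
    rw [cj, lvv] at k2
    have sq := o.sq
    let v : Fin 2 → O := Pi.single j 1
    have p1 := r.row (m := v ᵥ* (1 + A)) (by
      rw [vecMul_vecMul, show (1 + A) * (A - 1) = A * A - 1 by noncomm_ring, sq, sub_self, vecMul_zero])
    have p2 := r.row (m := v ᵥ* ((1 - A) * γ.ρ c)) (by
      rw [vecMul_vecMul, mul_assoc, mul_sub, o.anti, mul_one,
        show (1 - A) * (-(A * γ.ρ c) - γ.ρ c) = (A * A - 1) * γ.ρ c by noncomm_ring, sq, sub_self,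
        zero_mul, vecMul_zero])
    have p3 := congrArg (· ᵥ* γ.ρ c⁻¹) p2
    simp only [vecMul_vecMul, mul_assoc, ← map_mul, mul_inv_cancel, map_one, mul_one, smul_vecMul] at p3
    have p4 := (show (2 : O) • v = v ᵥ* (1 + A) + v ᵥ* (1 - A) by
      rw [vecMul_add, vecMul_sub, vecMul_one, two_smul]; abel).trans (congrArg₂ (· + ·) p1 p3)
    have p5 : u g j = t • lv ((2 : O) • v) (u g) := by
      rw [lv_eq]
      fin_cases j <;> simp [v, ← mul_smul, ht]
    have p6 : ∀ (x y : O) (a b : Fin 2 → O), lv (x • a + y • b) (u g) = x • lv a (u g) + y • lv b (u g) :=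
      fun x y a b => by simp only [lv_eq, Pi.add_apply, Pi.smul_apply, smul_eq_mul]; module
    rw [p5, p4, p6]
    exact smul_mem _ _ (add_mem (smul_mem _ _ k1) (smul_mem _ _ k2))

end grp

variable {O G ι : Type} [CommRing O] [Group G] [Fintype ι]

theorem Si.add {A : G → M2 O} {H : Subgroup G} {c : G} {gp lam : Fin 2 → O} (S : Si A H c gp lam)
    {M : Type} [AddCommGroup M] [Module O M] {u : G → Fin 2 → M} (co : Co A u) {g : G} (m : g ∈ H)
    (h : G) : u (g * h) = u g + u h := co.left (S.ker g m) h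

section
variable {p : Hf O G ι} {A : G → M2 O} {H : Subgroup G} {c : G} {gp lam : Fin 2 → O} {d : ℕ}

theorem ok_dec (o : p.Ok A H c d) (S : Si A H c gp lam) : ∃ ω, Y O H p.u ⊔ span O {ω} = ⊤ ∧
    ∀ dg : p.X →ₗ[O] O, (∀ g i, dg (p.u g i) = ((A g - 1) *ᵥ gp) i) →
      ∀ v, v - dg v • ω ∈ Y O H p.u := by
  obtain ⟨ω, h⟩ := S.om o.co o.fr
  refine ⟨ω, top_unique (o.gen ▸ Y_le.2 fun g _ i => ?_), fun dg k v => ?_⟩
  · exact sub_add_cancel (p.u g i) _ ▸ add_mem_sup (h g i) (mem_span_singleton.2 ⟨_, rfl⟩)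
  · exact (Y_le (N := (Y O H p.u).comap (LinearMap.id - dg.smulRight ω))).2
      (fun g _ i => by simpa [k] using h g i) (o.gen ▸ mem_top : v ∈ Y O ⊤ p.u)

variable [IsLocalRing O]

theorem ok_one (o : p.Ok A H c d) (S : Si A H c gp lam)
    (h : ∀ x ∈ LinearMap.ker p.lc, ∀ g ∈ H, x (lv lam (p.u g)) = 0) :
    finrank (ResidueField O) (p.X →ₗ[O] ResidueField O) ≤
      finrank (ResidueField O) (LinearMap.range p.lc) + 1 := by
  have := o.fin
  have := fin_k (O := O) (X := p.X)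
  obtain ⟨ω, k, -⟩ := ok_dec o S
  rw [← p.lc.finrank_range_add_finrank_ker]
  refine Nat.add_le_add_left (le_trans (LinearMap.finrank_le_finrank_of_injective
    (f := ev ω ∘ₗ (LinearMap.ker p.lc).subtype) ((injective_iff_map_eq_zero _).2 fun x e =>
      Subtype.ext (LinearMap.ker_eq_top.1 (top_unique (k ▸ sup_le (S.le o.co (h x x.2)) ?_))))) (by simp)) _
  exact span_le.2 (by rintro _ rfl; exact e)

end

variable [IsDomain O] [IsDiscreteValuationRing O] {A A' : G → M2 O} {H : Subgroup G} {c : G}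
  {gp gp' lam lam' : Fin 2 → O} (S : Si A H c gp lam) (S' : Si A' H c gp' lam') {p : St O G}
  (o : p.Ok A A' H c gp)
include S S' o

theorem ok_last (h : ∀ x ∈ LinearMap.ker p.X.lc, ∀ g ∈ H, x (lv lam (p.X.u g)) = 0)
    (h' : ∀ x ∈ LinearMap.ker p.Y.lc, ∀ g ∈ H, x (lv lam' (p.Y.u g)) = 0) : p.Bd := by
  intro I _ _ a y i j hc _ _ _
  have := o.X.fin
  have := o.Y.fin
  obtain ⟨w, w', h1, h2, h3⟩ := o.rc
  have k1 := orth h1 h2 (LinearMap.range p.X.lc) (LinearMap.range p.Y.lc) (by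
    rintro _ ⟨x, rfl⟩ _ ⟨y, rfl⟩; exact h3 x y)
  have k2 := ok_one o.X S h
  have k3 := ok_one o.Y S' h'
  have k4 := o.Y.rk.trans rk_le
  obtain ⟨b⟩ := ex_bas (I := I) (hc ▸ o.X.rk) (by omega)
  refine ⟨_, (pr_free b a).dt, (of fun r c => y c (b r)).det, ?_⟩
  rw [Basis.det_apply, ← det_transpose (b.toMatrix a), ← det_mul]
  congr 1; ext r c
  conv_lhs => rw [of_apply, ← b.sum_repr (a r), map_sum]
  simp [mul_apply, Basis.toMatrix_apply]

omit S' in
theorem ok_div {ϖ : O} (hϖ : Irreducible ϖ) : (∃ x : O, p.κ = x • p.dg) ∨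
    ∃ (x t : O) (κ' : p.X.X →ₗ[O] O), p.κ = t • κ' + x • p.dg ∧
      (∃ g ∈ H, ¬ t * ϖ ∣ p.κ (lv lam (p.X.u g))) ∧
      ∀ g ∈ H, ¬ t * ϖ ∣ p.κ (lv lam (p.X.u g)) → Associated (p.κ (lv lam (p.X.u g))) t := by
  obtain ⟨ω, -, k⟩ := ok_dec o.X S
  obtain ⟨t, ht⟩ := (IsPrincipalIdealRing.principal ((P004F.Ch.Y O H p.X.u).map p.κ)).principal
  have d : ∀ v ∈ P004F.Ch.Y O H p.X.u, t ∣ p.κ v := fun v hv =>
    Ideal.mem_span_singleton.1 (show _ ∈ span O {t} from ht ▸ mem_map_of_mem hv)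
  have d' : ∀ v, t ∣ (p.κ - p.κ ω • p.dg) v := fun v => by
    simpa [mul_comm] using d _ (k _ o.du v)
  by_cases h0 : t = 0
  · exact .inl ⟨_, sub_eq_zero.1 (LinearMap.ext fun v => zero_dvd_iff.1 (h0 ▸ d' v))⟩
  obtain ⟨κ', e⟩ := ex_div _ h0 d'
  refine .inr ⟨_, t, κ', eq_add_of_sub_eq e, ?_, fun g hg n => ?_⟩
  · by_contra! n
    obtain ⟨v, hv, e⟩ : t ∈ map p.κ _ := ht ▸ mem_span_singleton_self t
    have := Ideal.mem_span_singleton.1 (S.le o.X.co (N := Submodule.comap p.κ (Ideal.span {t * ϖ}))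
      (fun g hg => Ideal.mem_span_singleton.2 (n g hg)) hv)
    rw [e] at this
    exact hϖ.not_isUnit (isUnit_of_dvd_one ((mul_dvd_mul_iff_left h0).1 (by simpa using this)))
  · obtain ⟨z, hz⟩ := d (lv lam (p.X.u g)) (by
      rw [lv_eq]; exact add_mem (smul_mem _ _ (mem_Y _ hg 0)) (smul_mem _ _ (mem_Y _ hg 1)))
    rw [hz] at n ⊢
    refine associated_mul_unit_left _ _ (by_contra fun k => n (mul_dvd_mul_left t ?_))
    rwa [← mem_nonunits_iff, ← mem_maximalIdeal, hϖ.maximalIdeal_eq, Ideal.mem_span_singleton] at k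

omit o in
theorem core {𝒮 : Set (St O G)} (ok : ∀ p ∈ 𝒮, p.Ok A A' H c gp)
    (ext : ∀ p ∈ 𝒮, ∀ h ∈ H, ∃ q ∈ 𝒮, p.Ex lam lam' q h) (hp : p ∈ 𝒮) : p.Bd := by
  obtain ⟨ϖ, hϖ⟩ := IsDiscreteValuationRing.exists_irreducible O
  induction hn : finrank (ResidueField O) (LinearMap.ker p.X.lc) +
    finrank (ResidueField O) (LinearMap.ker p.Y.lc) using Nat.strong_induction_on generalizing p with
  | _ n ih =>
  have o := ok p hp
  rcases ok_div S o hϖ with ⟨x, e⟩ | ⟨x, t, κ', e, k1, k2⟩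
  · intro I _ _ a y i j _ ij hi hj
    have := o.X.fin
    refine ⟨0, dt0, zero_dvd_iff.2 ?_⟩
    set M : Matrix I I O := of fun r c => y c (a r)
    have : M = M.updateCol j (x • fun r => M r i) := by
      conv_lhs => rw [← updateCol_eq_self M j]
      congr 1; ext r; simp [M, hi, hj, e]
    rw [this, det_updateCol_smul, det_updateCol_eq_zero ij, mul_zero]
  have P : ∀ {M : Type} [AddCommGroup M] [Module O M] (a : G → M),
      (∀ g ∈ H, ∀ h ∈ H, a (g * h) = a g + a h) → (∃ g ∈ H, a g ≠ 0) → ∃ h ∈ H, a h ≠ 0 ∧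
      Associated (p.κ (lv lam (p.X.u h))) t := fun a h1 h2 => by
    let φ := (Ideal.span {t * ϖ}).mkQ ∘ₗ p.κ
    have hφ : ∀ v, φ v = 0 ↔ t * ϖ ∣ p.κ v := fun v =>
      (Quotient.mk_eq_zero _).trans Ideal.mem_span_singleton
    obtain ⟨h, m, e1, e2⟩ := pick S.two a (fun g => φ (lv lam (p.X.u g))) 0 0 h1
      (fun g m h m' => by rw [S.add o.X.co m, map_add, map_add]) h2
      (k1.imp fun g n => ⟨n.1, mt (hφ _).1 n.2⟩)
    rw [zero_add] at e1 e2
    exact ⟨h, m, e1, k2 h m (mt (hφ _).2 e2)⟩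
  by_cases c1 : ∀ x ∈ LinearMap.ker p.X.lc, ∀ g ∈ H, x (lv lam (p.X.u g)) = 0
  · by_cases c2 : ∀ x ∈ LinearMap.ker p.Y.lc, ∀ g ∈ H, x (lv lam' (p.Y.u g)) = 0
    · exact ok_last S S' o c1 c2
    push Not at c2
    obtain ⟨z, hz, c2⟩ := c2
    obtain ⟨h, m, e1, e2⟩ := P (fun g => z (lv lam' (p.Y.u g)))
      (fun g m h m' => by rw [S'.add o.Y.co m, map_add, map_add]) c2
    obtain ⟨q, hq, E⟩ := ext p hp h m
    refine o.step (ok q hq) E e e2 (ih _ ?_ hq rfl)
    obtain ⟨ε, π, π', E, E', -⟩ := E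
    exact hn ▸ add_lt_add_of_le_of_lt (E.le o.X) (E'.lt o.Y hz e1)
  · push Not at c1
    obtain ⟨z, hz, c1⟩ := c1
    obtain ⟨h, m, e1, e2⟩ := P (fun g => z (lv lam (p.X.u g)))
      (fun g m h m' => by rw [S.add o.X.co m, map_add, map_add]) c1
    obtain ⟨q, hq, E⟩ := ext p hp h m
    refine o.step (ok q hq) E e e2 (ih _ ?_ hq rfl)
    obtain ⟨ε, π, π', E, E', -⟩ := E
    exact hn ▸ add_lt_add_of_lt_of_le (E.lt o.X hz e1) (E'.le o.Y)

end Vale.Agent.P014X.Kq
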