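import Vale.Agent.P014X.Kq.Abs

/-! Saturation of a stage given by matrices. -/

set_option autoImplicit false
set_option linter.all false

namespace Vale.Agent.P014X.Kq
open Matrix Submodule Set Function Module IsLocalRing P004F.Alg P004F.Ch
open Vale.Agent.P014U.Kq (M2 F4 Gl Pk Sg)
open Vale.Agent.P014T.Kq (lv lv_eq Hf St R1)

variable {O G σ ι ι' : Type} [CommRing O] [Group G]

/-- saturation of the local relations -/
structure Sat (γ : Gl O G σ) where
  C : σ → M2 O
  N : σ → Matrix (Fin 2) F4 O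
  D : σ → Matrix F4 (Fin 2) O
  eq : ∀ y, γ.N y = C y * N y
  inv : ∀ y, N y * D y = 1
  ne : ∀ y, (C y).det ≠ 0

variable {γ : Gl O G σ} (s : Sat γ) (A : M2 O) (p : Pk O G σ ι)

abbrev Ro : Submodule O (Fin p.g → O) := p.Rl γ 1 ⊔
  (span O (range fun x : Fin 2 × σ => (s.N x.2 * p.l x.2) x.1) ⊔
    span O (range fun x : Fin 2 × ι => ((A - 1 : M2 O) * p.S x.2) x.1))

abbrev Xp : Type := (Fin p.g → O) ⧸ Ro s A p

abbrev mk : (Fin p.g → O) →ₗ[O] Xp s A p := mkQ _

variable {s A p}

theorem mk0 {v} (h : v ∈ p.Rl γ 1) : mk s A p v = 0 := (Quotient.mk_eq_zero _).2 (mem_sup_left h)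

theorem mk1 {v w} (h : v - w ∈ p.Rl γ 1) : mk s A p v = mk s A p w := by
  rw [← sub_eq_zero, ← map_sub, mk0 h]

theorem mkN (y i) : mk s A p ((s.N y * p.l y) i) = 0 :=
  (Quotient.mk_eq_zero _).2 (mem_sup_right (mem_sup_left (subset_span ⟨(i, y), rfl⟩)))

theorem mkA (x i) : mk s A p (((A - 1 : M2 O) * p.S x) i) = 0 :=
  (Quotient.mk_eq_zero _).2 (mem_sup_right (mem_sup_right (subset_span ⟨(i, x), rfl⟩)))

theorem mkU {Z : Set G} {N : Submodule O (Xp s A p)} (h : ∀ g ∈ Z, ∀ i, mk s A p (p.u g i) ∈ N) :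
    p.Us γ 1 Z ≤ N.comap (mk s A p) :=
  sup_le (span_le.2 (by rintro _ ⟨g, hg, i, rfl⟩; exact h g hg i)) fun v hv => by
    rw [mem_comap, mk0 hv]; exact zero_mem _

section
variable {M : Type} [AddCommGroup M] [Module O M]

theorem map_row {n m I : Type} [Fintype m] (g : (I → O) →ₗ[O] M) (B : Matrix n m O) (P : Matrix m I O)
    (i : n) : g ((B * P) i) = ∑ k, B i k • g (P k) := by
  rw [show (B * P) i = B i ᵥ* P from rfl, vecMul_eq_sum, map_sum]
  exact Finset.sum_congr rfl fun k _ => map_smul ..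

def lift (g : (Fin p.g → O) →ₗ[O] M) (h : ∀ v ∈ p.Rl γ 1, g v = 0)
    (h' : ∀ y i, g ((s.N y * p.l y) i) = 0) (h'' : ∀ x i, g (((A - 1 : M2 O) * p.S x) i) = 0) :
    Xp s A p →ₗ[O] M :=
  liftQ _ g (sup_le h (sup_le (span_le.2 (by rintro _ ⟨x, rfl⟩; exact h' x.2 x.1))
    (span_le.2 (by rintro _ ⟨x, rfl⟩; exact h'' x.2 x.1))))

theorem lift_mk (g : (Fin p.g → O) →ₗ[O] M) (h h' h'' v) :
    lift (s := s) (A := A) g h h' h'' (mk s A p v) = g v := rfl

end

variable (s A p) in
/-- the module of one side -/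
abbrev hf (lam : Fin 2 → O) : Hf O G ι where
  X := Xp s A p
  u g i := mk s A p (p.u g i)
  f x := lv lam fun i => mk s A p (p.F x i)
  s x := lv lam fun i => mk s A p (p.S x i)

variable {e lam : Fin 2 → O} (r : R1 (A - 1) e lam) {H : Subgroup G} {c : G} {d : ℕ}
include r

theorem mkS (x i) : mk s A p (p.S x i) = e i • (hf s A p lam).s x :=
  r.col (x := fun i => mk s A p (p.S x i)) (fun i => (map_row _ _ _ i).symm.trans (mkA x i)) i

variable [Fintype σ] [Fintype ι] (o : Po γ p H c d)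
include o

theorem hf_ok [IsDomain O] : (hf s A p lam).Ok (fun g => γ.ρ g) H c d where
  fin := inferInstanceAs (Module.Finite O (Xp s A p))
  co a b := funext fun i => by
    have := mk0 (s := s) (A := A) (o.coc a b i)
    rw [show (p.u (a * b) - p.u a - γ.ρ a * p.u b) i = p.u (a * b) i - p.u a i - (γ.ρ a * p.u b) i from rfl,
      map_sub, map_sub, map_row, sub_sub, sub_eq_zero] at this
    exact this
  gen := eq_top_iff.2 fun z _ => by
    obtain ⟨v, rfl⟩ := mkQ_surjective _ z
    exact mkU (s := s) (fun g _ i => mem_Y (O := O) (hf s A p lam).u (Subgroup.mem_top g) i) (o.gen v)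
  fr := funext fun i => mk0 (o.fr i)
  sH x := by
    have := fun i => mkU (s := s) (fun g a i => mem_Y (O := O) (hf s A p lam).u a i) (o.sH x i)
    exact (congrArg (· ∈ _) (lv_eq lam fun i => mk s A p (p.S x i))).mpr
      (add_mem (smul_mem _ _ (this 0)) (smul_mem _ _ (this 1)))
  rk := by
    let T : Fin p.r ⊕ Fin 2 × σ ⊕ ι → Fin p.g → O := Sum.elim (fun i => p.Q i)
      (Sum.elim (fun x => (s.N x.2 * p.l x.2) x.1) fun x => ![-e 1, e 0] ᵥ* p.S x)
    have l : Ro s A p ≤ span O (range T) := by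
      refine sup_le (span_le.2 ?_) (sup_le
        (span_mono (by rintro _ ⟨x, rfl⟩; exact ⟨.inr (.inl x), rfl⟩)) (span_le.2 ?_))
      · rintro _ ⟨i | ⟨y | x, i⟩, rfl⟩
        · exact subset_span ⟨.inl i, rfl⟩
        · have : p.Rm γ 1 (.inr (.inl y, i)) = ∑ j, s.C y i j • T (.inr (.inl (j, y))) := by
            refine Eq.trans (b := (s.C y * (s.N y * p.l y)) i) ?_ (map_row LinearMap.id (s.C y) (s.N y * p.l y) i)
            rw [← Matrix.mul_assoc, ← s.eq]; rfl
          exact (congrArg (· ∈ _) this).mpr (sum_mem fun j _ => smul_mem _ _ (subset_span ⟨_, rfl⟩))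
        · have : p.Rm γ 1 (.inr (.inr x, i)) = 0 := by
            show ((γ.ρ 1 - 1 : M2 O) * p.S x) i = 0
            rw [map_one, sub_self, Matrix.zero_mul]; rfl
          exact (congrArg (· ∈ _) this).mpr (zero_mem _)
      · rintro _ ⟨⟨i, x⟩, rfl⟩
        have a := congrFun r.Me i
        have b := r.le
        have : ((A - 1 : M2 O) * p.S x) i = ((A - 1) i 1 * lam 0 - (A - 1) i 0 * lam 1) • T (.inr (.inr x)) := by
          ext j
          simp only [mulVec, dotProduct, Fin.sum_univ_two, Pi.zero_apply] at a b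
          simp only [T, Sum.elim_inr, Fin.sum_univ_two, mul_apply, Pi.smul_apply, vecMul, dotProduct,
            cons_val_zero, cons_val_one, smul_eq_mul]
          linear_combination (lam 0 * p.S x 0 j + lam 1 * p.S x 1 j) * a -
            ((A - 1) i 0 * p.S x 0 j + (A - 1) i 1 * p.S x 1 j) * b
        exact (congrArg (· ∈ _) this).mpr (smul_mem _ _ (subset_span ⟨_, rfl⟩))
    have := Module.Finite.span_of_finite O (finite_range T)
    have a := (Ro s A p).finrank_quotient_add_finrank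
    have b := (Submodule.finrank_mono l).trans (finrank_range_le_card T)
    have := o.cnt
    simp only [finrank_fintype_fun_eq_card, Fintype.card_sum, Fintype.card_prod, Fintype.card_fin] at a b
    show _ ≤ finrank O (Xp s A p)
    unfold Xp; omega

theorem hf_ex {q : Pk O G σ ι'} {ε : Option ι ≃ ι'} {g : G} (E : p.Ext γ 1 q ε g) :
    ∃ π, (hf s A p lam).Ex (hf s A q lam) ε (lv lam ((hf s A p lam).u g)) π := by
  let m := mk s A p ∘ₗ E.A.vecMulLinear
  have mn : ∀ i, m (q.S (ε none) i) = 0 := fun i =>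
    mk0 ((E.ker _).2 (mem_sup_right (subset_span ⟨i, rfl⟩)))
  let π : Xp s A q →ₗ[O] Xp s A p := lift m (fun v hv => mk0 ((E.ker _).2 (mem_sup_left hv)))
    (fun y i => ((map_row m ..).trans (Finset.sum_congr rfl fun k _ => congrArg _ (mk1 (E.l y k)))).trans
      ((map_row ..).symm.trans (mkN y i))) fun x i => by
      obtain ⟨x | x, rfl⟩ := ε.surjective x
      · rw [map_row]; exact Finset.sum_eq_zero fun k _ => by rw [mn, smul_zero]
      · exact ((map_row m ..).trans (Finset.sum_congr rfl fun k _ => congrArg _ (mk1 (E.S x k)))).trans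
          ((map_row ..).symm.trans (mkA x i))
  have hl : ∀ x : Fin 2 → Xp s A q, π (lv lam x) = lv lam fun i => π (x i) := fun x => by simp [lv_eq]
  let S := span O {(hf s A q lam).s (ε none)}
  let n := S.mkQ ∘ₗ mk s A q
  have n0 : ∀ v, v ᵥ* E.A ∈ p.Rl γ 1 → n v = 0 := fun v hv => (sup_le
    (fun v hv => (congrArg S.mkQ (mk0 hv)).trans (map_zero _)) (span_le.2 (by
      rintro _ ⟨i, rfl⟩
      exact (Quotient.mk_eq_zero _).2 (mem_span_singleton.2 ⟨_, (mkS r _ i).symm⟩))) :
      _ ≤ LinearMap.ker n) ((E.ker v).1 hv)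
  have sj : p.Us γ 1 univ ≤ LinearMap.range E.A.vecMulLinear ⊔ p.Rl γ 1 := sup_le (span_le.2 (by
    rintro _ ⟨a, -, i, rfl⟩
    exact mem_sup.2 ⟨_, ⟨q.u a i, rfl⟩, _, neg_mem (E.u a i), by ext; simp [mul_apply, vecMul, dotProduct]⟩))
    le_sup_right
  choose _ hw z hz hw' using fun i => mem_sup.1 (sj (o.gen (Pi.single i 1)))
  choose w hw using hw
  let b := Fintype.linearCombination O w
  have b1 : ∀ v, b v ᵥ* E.A - v ∈ p.Rl γ 1 := fun v => by
    conv => enter [2, 2]; rw [pi_eq_sum_univ' v]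
    simp only [b, Fintype.linearCombination_apply, sum_vecMul, ← Finset.sum_sub_distrib]
    refine sum_mem fun i _ => ?_
    rw [smul_vecMul, ← smul_sub, ← hw', ← hw]
    simpa using smul_mem _ (v i) (hz i)
  have g1 : ∀ v w, w ᵥ* E.A - v ∈ p.Rl γ 1 → n (b v) = n w := fun v w h => by
    have := n0 (b v - w) (by
      have := sub_mem (b1 v) h
      rwa [sub_sub_sub_cancel_right, ← sub_vecMul] at this)
    rwa [map_sub, sub_eq_zero] at this
  let j : Xp s A p →ₗ[O] Xp s A q ⧸ S := lift (n ∘ₗ b)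
    (fun v hv => (g1 _ 0 (by rw [zero_vecMul, zero_sub]; exact neg_mem hv)).trans (map_zero _))
    (fun y i => ((map_row (n ∘ₗ b) ..).trans (Finset.sum_congr rfl fun k _ => congrArg _ (g1 _ _ (E.l y k)))).trans
      ((map_row ..).symm.trans ((congrArg S.mkQ (mkN y i)).trans (map_zero _))))
    (fun x i => ((map_row (n ∘ₗ b) ..).trans (Finset.sum_congr rfl fun k _ => congrArg _ (g1 _ _ (E.S x k)))).trans
      ((map_row ..).symm.trans ((congrArg S.mkQ (mkA _ i)).trans (map_zero _))))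
  refine ⟨π, le_antisymm (fun z hz => ?_) (span_le.2 ?_), fun a i => mk1 (E.u a i),
    fun x => (hl _).trans (congrArg _ (funext fun i => mk1 (E.F x i))),
    fun x => (hl _).trans (congrArg _ (funext fun i => mk1 (E.S x i))),
    (hl _).trans (congrArg _ (funext fun i => mk1 (E.new i)))⟩
  · obtain ⟨v, rfl⟩ := mkQ_surjective _ z
    have : j (π (mk s A q v)) = S.mkQ (mk s A q v) := g1 (v ᵥ* E.A) v (by simp)
    rw [show π (mk s A q v) = 0 from hz, map_zero] at this
    exact (Quotient.mk_eq_zero _).1 this.symm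
  · rintro _ rfl
    exact (hl _).trans ((congrArg _ (funext mn)).trans (map_zero _))

end Vale.Agent.P014X.Kq
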