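import Vale.Agent.P014U.Kq.Sy

/-! # P014X, block Kq: the patched Kolyvagin system of an induced representation (words, row) -/

set_option autoImplicit false
set_option linter.all false

open Matrix Submodule Set

noncomputable section

namespace Vale.Agent.P014X.Kq

open Vale.Agent.P014U.Kq (M2 F4 Gl Pk Sg)

variable {O G σ ι : Type} [CommRing O] [Group G] [Fintype σ] [Fintype ι]

/-- one side; `A` is the reflection which fixes the line of the singular values -/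
structure Go (γ : Gl O G σ) (K H : Subgroup G) (c : G) (A : M2 O) : Prop where
  ρH : ∀ h ∈ H, γ.ρ h = 1
  sah : ∃ z ∈ K, IsUnit (γ.ρ z - 1).det ∧ ∀ g ∈ K, z * g * z⁻¹ * g⁻¹ ∈ H
  cj : ∃ w, 1 + γ.ρ c = vecMulVec γ.gp w
  tr : A.trace = 0
  det : A.det = -1
  anti : γ.ρ c * A = -(A * γ.ρ c)

/-- one side of a stage -/
structure Po (γ : Gl O G σ) (p : Pk O G σ ι) (H : Subgroup G) (c : G) (d : ℕ) : Prop where
  cnt : p.r + 2 * (Fintype.card σ + Fintype.card ι) + d ≤ p.g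
  coc : ∀ g h i, (p.u (g * h) - p.u g - γ.ρ g * p.u h) i ∈ p.Rl γ 1
  gen : ∀ v, v ∈ p.Us γ 1 univ
  fr : ∀ i, p.u c i ∈ p.Rl γ 1
  sH : ∀ x i, p.S x i ∈ p.Us γ 1 H

/-- a stage -/
structure So (γ γ' : Gl O G σ) (p : Sg O G σ) (H : Subgroup G) (c : G) (J A : M2 O)
    (B : σ → Matrix F4 F4 O) : Prop where
  X : Po γ p.X H c 2
  Y : Po γ' p.Y H c 0
  kr : p.X.Rm γ 1 *ᵥ p.κ = 0
  ks : ∀ x, (A - 1) *ᵥ (p.X.S x *ᵥ p.κ) = 0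
  dr : p.X.Rm γ 1 *ᵥ p.dg = 0
  du : ∀ g, p.X.u g *ᵥ p.dg = (γ.ρ g - 1) *ᵥ γ.gp
  rc : ∃ (w w' : p.ι → O) (η : O) (Z : Matrix (Fin p.X.r ⊕ (σ ⊕ p.ι) × Fin 2) (Fin p.Y.g) O)
    (Z' : Matrix (Fin p.X.g) (Fin p.Y.r ⊕ (σ ⊕ p.ι) × Fin 2) O),
    (∀ x, IsUnit (w x) ∧ IsUnit (w' x)) ∧
    ∑ x, (w x • ((p.X.F x)ᵀ * J * p.Y.S x) + w' x • ((p.X.S x)ᵀ * J * p.Y.F x)) +
      η • ∑ y, (p.X.l y)ᵀ * B y * p.Y.l y = (p.X.Rm γ 1)ᵀ * Z + Z' * p.Y.Rm γ' 1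

/-- `q` has one more prime, whose Frobenius element is `g` -/
structure Se (γ γ' : Gl O G σ) (A : M2 O) (p q : Sg O G σ) (g : G) where
  e : Option p.ι ≃ q.ι
  X : p.X.Ext γ 1 q.X e g
  Y : p.Y.Ext γ' 1 q.Y e g
  fs : ∃ y : O, IsUnit y ∧ q.X.S (e none) *ᵥ q.κ = y • ((A - 1).adjugate *ᵥ (p.X.u g *ᵥ p.κ))

/-- **the patched system** -/
structure SyK (O : Type) [CommRing O] where
  G : Type
  [gG : Group G]
  σ : Type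
  [fσ : Fintype σ]
  γ : Gl O G σ
  γ' : Gl O G σ
  K : Subgroup G
  H : Subgroup G
  c : G
  J : M2 O
  A : M2 O
  A' : M2 O
  B : σ → Matrix F4 F4 O
  P : σ → O
  nK : K.Normal
  nH : H.Normal
  cov : ∀ g, g ∈ K ∨ c⁻¹ * g ∈ K
  g1 : Go γ K H c A
  g2 : Go γ' K H c A'
  uJ : IsUnit J.det
  AJ : Aᵀ * J * A' = J
  P0 : ∀ x, P x ≠ 0
  PN : ∀ x, P x ∈ Ideal.span (range fun D : Matrix F4 (Fin 2) O => (γ.N x * D).det)
  N0 : ∀ x, ∃ D : Matrix F4 (Fin 2) O, (γ'.N x * D).det ≠ 0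
  cb : ∀ x, ∃ (Cb : Matrix F4 (Fin 2) O) (D : Matrix (Fin 2) F4 O) (Z : M2 O),
    (D * Cb).det ≠ 0 ∧ γ.N x * Cb = 0 ∧ Cbᵀ * B x = Z * γ'.N x
  𝒮 : Set (Sg O G σ)
  ok : ∀ p ∈ 𝒮, So γ γ' p H c J A B
  ext : ∀ p ∈ 𝒮, ∀ h ∈ H, ∃ q ∈ 𝒮, Nonempty (Se γ γ' A p q h)
  o : Sg O G σ
  mem : o ∈ 𝒮
  emp : IsEmpty o.ι

attribute [instance] SyK.gG SyK.fσ

/-- **the Kolyvagin bound**, for every quotient of the module of the first stage -/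
def KQ : Prop := ∀ (O : Type) [CommRing O] [IsDomain O] [IsDiscreteValuationRing O],
  IsUnit (2 : O) → ∀ (S : SyK O) (a : Fin 2 → Fin S.o.X.g → O) (M : Type) [AddCommGroup M]
    [Module O M] (f : (Fin S.o.X.g → O) →ₗ[O] M) (d : O), Function.Surjective f →
    (∀ v ∈ S.o.X.Rl S.γ 1 ⊔ span O (range a), f v = 0) → P004F.Alg.Pr M d →
    d ∣ (∏ y, S.P y) * S.o.W a

end Vale.Agent.P014X.Kq
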